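import Crest.Agent.X262.Min71.Nef
import Crest.Agent.X262.Loc95.Kc

/-!
# Row 262, SURF (helper71): the adjunction inequality from Riemann-Roch
-/

set_option autoImplicit false

noncomputable section

namespace Crest.Agent.X262.Min71

open Crest.Agent.X277 Crest.Agent.X277.Lef Crest.Agent.X277.BD Crest.Agent.X277.BD.Cyc
open Crest.Agent.X277.Pst Module Filter
open Crest.Agent.X277.BD.Br (On oP kP kP_mem oP_mem)
open Crest.Agent.X262.Surf Crest.Agent.X262.Geo

variable {F : Type} [Field F] [Algebra ℂ F] {P : PModel ℂ F} {D : BD ℂ F} {V : RZ ℂ F}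

/-- the restriction of sections to a prime divisor -/
def resL (hD : D.val V = 1) : D.Sec →ₗ[ℂ] Rf V where
  toFun s := (plV V).r s
  map_add' s t := Pl.r_add (Pl.mem_of_sec (p := plV V) hD s.2) (Pl.mem_of_sec (p := plV V) hD t.2)
  map_smul' c s := by
    rw [Submodule.coe_smul, Algebra.smul_def,
      Pl.r_mul ((plV V).V.2 c) (Pl.mem_of_sec (p := plV V) hD s.2), lnr_plV V c,
      RingHom.id_apply, Algebra.smul_def]

variable [Algebra.EssFiniteType ℂ F]

theorem h0_le_res (hV : Prm (oP P) V) (hP : D ∈ On P) (hD : D.val V = 1) :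
    h0 D ≤ h0 (D - dv P V) + h0 ((plV V).res D) := by
  have := essFT_Rf hV.dvs
  have h1 := (resL hD).finrank_range_add_finrank_ker
  have h2 : finrank ℂ (LinearMap.range (resL hD)) ≤ finrank ℂ ((plV V).res D).Sec :=
    Submodule.finrank_mono (by
      rintro _ ⟨s, rfl⟩
      exact Pl.r_mem_Sec (p := plV V) hD s.2)
  have h3 : finrank ℂ (LinearMap.ker (resL hD)) ≤ finrank ℂ (D - dv P V).Sec := by
    rw [← Submodule.finrank_map_subtype_eq]
    refine Submodule.finrank_mono ?_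
    rintro _ ⟨s, hs, rfl⟩
    exact mem_Sec_sub_dv hP s.2
      (hD ▸ (Pl.r_eq_zero (p := plV V) (Pl.mem_of_sec (p := plV V) hD s.2)).1 hs)
  simp only [h0]
  omega

/-- **the restriction sequence** -/
theorem h0_le_rs (hV : Prm (oP P) V) (hP : D ∈ On P) :
    h0 D ≤ h0 (D - dv P V) + h0 ((plV V).rs D) := by
  have hg := v_gen D V
  have h1 := h0_le_res hV (sub_mem hP (Br.pr_mem (D.gen V))) (Pl.val_sub_gen (p := plV V) hg)
  have h2 : ∀ a : BD ℂ F, h0 (a - pr ℂ (D.gen V)) = h0 a := fun a =>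
    congrArg Nat.cast (Lin.finrank (Lin.symm ⟨_, ne_of_val hg, (sub_add_cancel _ _).symm⟩))
  rwa [sub_right_comm, h2, h2] at h1

theorem adjStmt (hR : RRStmt) : AdjStmt := by
  intro F _ _ _ P b V hV
  have := essFT_Rf hV.dvs
  have hd : dim ℂ (Rf V) = 1 := by have := dim_Rf' hV.dvs; have := Hor83.dim_two b; omega
  have h1 : Loc.cst ℂ (Rf V) = 1 :=
    Loc.cst_of_closed (IntermediateField.eq_bot_of_isAlgClosed_of_isAlgebraic _)
  have hp : 0 < bnum [oP P, dv P V] :=
    bnum_dv' hV oP_mem ▸ dg_oP_pos (d := 1) hV (Hor83.dim_two b)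
  obtain ⟨c, hc⟩ := hR F P b
  obtain ⟨m, ⟨h2, h3⟩, h4⟩ := (((hc 0 (zero_mem _)).and (hc _ (neg_mem (dv_mem V)))).and
    (eventually_ge_atTop (2 * Loc.gn ℂ (Rf V)))).exists
  have h5 := h0_le_rs hV (nsmul_mem oP_mem m)
  have h6 : bnum [(plV V).rs (m • oP P)] = m * bnum [oP P, dv P V] := by
    rw [← bnum_nsmul, bnum_dv' hV (nsmul_mem oP_mem m), Geo.dg_eq]
    rfl
  have h7 : (m : ℤ) ≤ m * bnum [oP P, dv P V] := le_mul_of_one_le_right (Int.natCast_nonneg m) hp
  have h8 : h0 ((plV V).rs (m • oP P)) = _ := Loc.finrank_of_lt hd (by omega)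
  rw [zero_add] at h2
  rw [neg_add_eq_sub] at h3
  simp only [rr, bnum_add, bnum_sub, bnum_sub2, bnum_nsmul, bnum_nsmul2,
    bnum_swap (dv P V) (oP P), bnum_swap (dv P V) (kP P b), mul_sub] at h2 h3 ⊢
  omega

end Crest.Agent.X262.Min71
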