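import Crest.Agent.X262.Min71.Nef
import Crest.Agent.X262.Sark27.Term
import Crest.Agent.X262.Surf.Defs2

/-!
# Row 262, SURF (helper71): `ThMinStmt`, `KStmt` and minimal models from Castelnuovo's theorem
-/

set_option autoImplicit false

noncomputable section

namespace Crest.Agent.X262.Min71

open Crest.Agent.X277 Crest.Agent.X277.Lef Crest.Agent.X277.BD Crest.Agent.X277.Pst
open Crest.Agent.X277.BD.Br (On oP kP kP_mem oP_mem)
open Crest.Agent.X262.Surf Crest.Agent.X262.Geo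
open Crest.Agent.X262.Top (K3)

variable {F : Type} [Field F] [Algebra ℂ F] [Algebra.EssFiniteType ℂ F] {P P₀ S : PModel ℂ F}
variable {a Θ : BD ℂ F} {V W : RZ ℂ F} {b : B2 F}

theorem thMinStmt (hR : ResStmt) (hC : CastStmt) (hA : AdjStmt) : ThMinStmt := by
  intro E _ _ _ b Θ m hN hB hd
  obtain ⟨P, hP⟩ := hR E {Θ}
  have hp : 0 < bnum [Θ, Θ] := bnum_pos (Hor83.dim_two b).symm (by simp [hN, hB])
  refine cast_ind hC b hp (fun _ => ∃ B : PModel ℂ E, Θ ∈ On B ∧ ∀ i j : ℕ, i ≤ j * m →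
    Psef (i • kP B b + j • Θ) → Nef (i • kP B b + j • Θ)) (fun B hΘ h => ?_)
    (fun _ _ _ _ _ _ _ h => h) P (hP Θ (by simp))
  refine ⟨B, hΘ, fun i j hij hs => nef_On b (add_mem (nsmul_mem (kP_mem b) i) (nsmul_mem hΘ j))
    fun V hV => not_lt.1 fun h1 => ?_⟩
  have h2 := sq_neg b hs h1
  have h3 := nef_mul_dv (P := B) hN V
  rw [bnum_add, bnum_nsmul, bnum_nsmul] at h1
  have h4 : bnum [kP B b, dv B V] < 0 := by
    by_contra h5
    have := mul_nonneg (Int.natCast_nonneg i) (not_lt.1 h5)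
    have := mul_nonneg (Int.natCast_nonneg j) h3
    omega
  obtain ⟨h5, h6⟩ := minus_one hA b hV h4 h2
  have h7 : (m : ℤ) ≤ bnum [Θ, dv B V] :=
    Int.le_of_dvd (lt_of_le_of_ne h3 (h V hV h5 h6).symm) (hd _)
  have h8 := mul_le_mul_of_nonneg_left h7 (Int.natCast_nonneg j)
  have h9 : (i : ℤ) ≤ j * m := by exact_mod_cast hij
  rw [h6] at h1
  omega

theorem kP_le (b : B2 F) (h : oP S ∈ On P) : kP S b ≤ kP P b :=
  le_On (Br.On_le_iff.2 h (kP_mem b)) (kP_mem b) fun _ hV =>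
    (od_le_iff hV.dvs).2 (Sark27.kP_le_val S b hV)

theorem exc_null (b : B2 F) (h : oP S ∈ On P) (hV : Prm (oP P) V) (h0 : ¬ Prm (oP S) V)
    (ha : a ∈ On S) : bnum [a, dv P V] = 0 :=
  (bnum_dv' hV (Br.On_le_iff.2 h ha)).trans
    (Hor83.dg_car (Hor83.dim_two b) Br.free_oP (car_of_On ha) hV.dvs h0)

theorem not_prm_of_null (b : B2 F) (h : oP S ∈ On P) (hV : Prm (oP P) V)
    (h0 : bnum [oP S, dv P V] = 0) : ¬ Prm (oP S) V := fun h1 =>
  (dg_oP_pos (d := 1) h1 (Hor83.dim_two b)).ne' ((bnum_dv' hV h).symm.trans h0)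

/-- a smooth model over `S` without exceptional `(-1)`-curve is `S` -/
theorem prm_of_min (hA : AdjStmt) (h : oP S ∈ On P)
    (h0 : ∀ V, Prm (oP P) V → bnum [dv P V, dv P V] = -1 → bnum [kP P b, dv P V] = -1 →
      bnum [oP S, dv P V] ≠ 0) (hV : Prm (oP P) V) : Prm (oP S) V := by
  have hz : kP P b - kP S b ∈ On P := sub_mem (kP_mem b) (Br.On_le_iff.2 h (kP_mem b))
  have h1 : 0 ≤ kP P b - kP S b := sub_nonneg.2 (kP_le b h)
  have h2 : Mod.EqOn (oP S) (kP P b - kP S b) 0 :=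
    Mod.eqOn_sub.2 fun W hW => (Sark27.kP_eq_val b hW (prm_up h hW)).symm
  have h3 : Nef (kP P b - kP S b) := nef_On b hz fun W hW => by
    by_cases h4 : Prm (oP S) W
    · exact bnum_dv' hW hz ▸ dg_nonneg_of h1 (h2 W h4) (by simp)
    · refine not_lt.1 fun h5 => ?_
      have h6 := sq_neg b (psef_of_nonneg h1) h5
      rw [bnum_sub, exc_null b h hW h4 (kP_mem b), sub_zero] at h5
      obtain ⟨h7, h8⟩ := minus_one hA b hW h5 h6
      exact h0 W hW h7 h8 (exc_null b h hW h4 oP_mem)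
  by_contra h4
  exact absurd (sub_nonpos.1 (Mod.neg (isMod_oP S) (Mod.rnef_of_nef h3) h2.le) V)
    (not_le.2 (Sark27.kP_lt_val b hV h4))

theorem Cast.nef (h : Cast b P P₀ V) (ha : a ∈ On P) (hn : Nef a) :
    a + bnum [a, dv P V] • dv P V ∈ On P₀ ∧ Nef (a + bnum [a, dv P V] • dv P V) := by
  have h1 : a + bnum [a, dv P V] • dv P V ∈ On P := add_mem ha (zsmul_mem (dv_mem V) _)
  have h2 : bnum [a + bnum [a, dv P V] • dv P V, dv P V] = 0 := by
    rw [bnum_add, bnum_zsmul, h.sq]; ring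
  refine ⟨h.mem _ h1 h2, nef_On b h1 fun W hW => ?_⟩
  by_cases h3 : W = V
  · rw [h3, h2]
  · rw [bnum_add, bnum_zsmul]
    exact add_nonneg (nef_mul_dv hn W) (mul_nonneg (nef_mul_dv hn V) (dv_dv_nonneg hW h3))

theorem kStmt (hC : CastStmt) (hA : AdjStmt) : KStmt := by
  intro F _ _ _ d S P b hP
  have hd := Hor83.dim_two b
  have hp : 0 < bnum [oP S.P, oP S.P] :=
    bnum_pos hd.symm (by simp [Br.free_oP.nef, (isMod_oP S.P).big])
  have hK : Lin (kP S.P b) 0 := (Br.lin_kP b S.b).trans S.can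
  refine cast_ind hC b hp (fun P => ∀ a ∈ On P, Nef a →
    bnum [a, S.L] ^ 2 ≤ d * (bnum [a, a] + bnum [kP P b, a] ^ 2)) (fun P hP h a ha _ => ?_)
    (fun P P₀ V hP hP₀ h0 h ih a ha hn => ?_) P hP
  · have h1 : a ∈ On S.P := by
      rw [eq_On ha (Br.On_le_iff.2 hP (tr_mem (P := S.P) a))
        fun V hV => (od_tr (prm_of_min hA hP h hV) a).symm]
      exact tr_mem a
    obtain ⟨c, hc⟩ := S.gen a h1
    have h2 := hc _ S.L_on
    have h3 := hc _ h1
    rw [bnum_sub, bnum_zsmul, sub_eq_zero] at h2 h3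
    rw [S.L_sq] at h2
    rw [bnum_swap S.L, h2] at h3
    rw [h2, h3]
    have := mul_nonneg (Int.natCast_nonneg d) (sq_nonneg (bnum [kP P b, a]))
    nlinarith
  · obtain ⟨h1, h2⟩ := h.nef ha hn
    have h3 := ih _ h1 h2
    have h4 : 0 ≤ bnum [kP P₀ b, a + bnum [a, dv P V] • dv P V] :=
      ((hK.eff Eff.zero).mono (kP_le b hP₀)).bnum_nonneg (by simpa using h2)
    have h5 : bnum [dv P V, S.L] = 0 :=
      (bnum_swap _ _ []).trans (exc_null b hP h.prm (not_prm_of_null b hP h.prm h0) S.L_on)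
    have h6 := nef_mul_dv (P := P) hn V
    rw [h.kP_eq, bnum_add, bnum_swap (dv P V) a]
    simp only [bnum_add, bnum_add2, bnum_zsmul, bnum_zsmul2, h5, h.sq, h.can0,
      bnum_swap (dv P V) a] at h3 h4
    refine (le_of_eq_of_le (by ring) h3).trans (mul_le_mul_of_nonneg_left ?_ (Int.natCast_nonneg d))
    nlinarith [mul_nonneg h6 h4]

theorem eff_kP (b : B2 F) (h : oP S ∈ On P) (he : Eff (kP P b)) : Eff (kP S b) := by
  obtain ⟨s, hs, h0⟩ := he
  exact ⟨s, (car_of_On (kP_mem b)).mem_Sec (isMod_oP S) fun V hV =>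
    (hs V).trans (Sark27.kP_eq_val b hV (prm_up h hV)).ge, h0⟩

/-- **minimal models** of surfaces with `p_g > 0` -/
theorem exists_min (hC : CastStmt) (hA : AdjStmt) (P : PModel ℂ F) (b : B2 F)
    (he : Eff (kP P b)) : ∃ P₀ : PModel ℂ F, oP P₀ ∈ On P ∧ Eff (kP P₀ b) ∧ Nef (kP P₀ b) := by
  have key : ∀ (n : ℕ) (Q : PModel ℂ F), oP Q ∈ On P → Eff (kP Q b) →
      bnum [kP Q b, oP P] < n → ∃ P₀ : PModel ℂ F, oP P₀ ∈ On P ∧ Eff (kP P₀ b) ∧
        Nef (kP P₀ b) := fun n => by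
    induction n with
    | zero => exact fun Q _ h2 h3 =>
        absurd (h2.bnum_nonneg (l := [oP P]) (by simpa using Br.free_oP.nef)) (not_le.2 h3)
    | succ n ih =>
      intro Q h1 h2 h3
      by_contra hn
      refine hn ⟨Q, h1, h2, nef_On b (kP_mem b) fun V hV => not_lt.1 fun h4 => hn ?_⟩
      obtain ⟨h5, h6⟩ := minus_one hA b hV h4 (sq_neg b h2.psef h4)
      obtain ⟨Q₀, h⟩ := exists_cast hC b hV h5 h6
      refine ih Q₀ (Br.On_le_iff.2 h1 h.le) (eff_kP b h.le h2) ?_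
      have h7 := od_mul_le (l := [oP P]) (dv_nonneg (P := Q) V) (by simpa using Br.free_oP.nef)
        hV.dvs
      have h8 : 0 < dg V [oP P] := dg_oP_pos (d := 1) (prm_up h1 hV) (Hor83.dim_two b)
      rw [od_dv_self hV] at h7
      rw [h.kP_eq, bnum_add] at h3
      push_cast at h3
      omega
  exact key ((bnum [kP P b, oP P]).toNat + 1) P oP_mem he (by omega)

theorem minStmt (hC : CastStmt) (hA : AdjStmt) (F : Type) [Field F] [Algebra ℂ F]
    [Algebra.EssFiniteType ℂ F] (P : PModel ℂ F) (b : B2 F) (he : Eff (kP P b)) :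
    ∃ P₀ : PModel ℂ F, Nef (kP P₀ b) := (exists_min hC hA P b he).imp fun _ h => h.2.2

end Crest.Agent.X262.Min71
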