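import Crest.Agent.X262.Geo.Dv
import Crest.Agent.X262.Hor83.Main
import Crest.Agent.X262.Loc95.Crv

/-!
# Row 262, SURF (helper71): nefness is tested on prime divisors; `CastStmt`, `AdjStmt`

* `nef_of_rs`, `nef_of_dg`, `nef_On` : Kleiman's criterion in the language of b-divisors;
* `CastStmt` (Castelnuovo), `AdjStmt` (adjunction inequality), `cast_ind` (induction along the
  contractions of the `Θ`-null `(-1)`-curves).
-/

set_option autoImplicit false

noncomputable section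

namespace Crest.Agent.X262.Min71

open Crest.Agent.X277 Crest.Agent.X277.Lef Crest.Agent.X277.BD Crest.Agent.X277.BD.Cyc
open Crest.Agent.X277.Pst Crest.Agent.X277.AN Crest.Agent.X277.AN.G2
open Crest.Agent.X277.BD.Br (On oP kP)
open Crest.Agent.X262.Surf Crest.Agent.X262.Geo
open Crest.Agent.R274 Coh_413

section Gen

variable {k F : Type} [Field k] [Field F] [Algebra k F] [CharZero k] [Algebra.EssFiniteType k F]
variable {z : BD k F}

/-- a class whose restrictions to all prime divisors are nef is nef (dimension `≥ 2`) -/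
theorem nef_of_rs {d : ℕ} (hd : dim k F = d + 2) (h : ∀ V, Dvs V → Nef ((plV V).rs z)) :
    Nef z := by
  obtain ⟨M, hM⟩ := exists_mdl1 z
  refine (nef_iff (a := ⟨z, hM⟩)).1 (G2.nef_iff.2 fun Z hZ => ?_)
  by_cases h1 : (top M.X).Sub Z
  · exact absurd ((G2H.dimLT_sub h1 hZ).mono (by omega)) M.dim_top.2
  · obtain ⟨D, hD⟩ := G2H.exists_pdiv_sup (S := M.S) (nrm M) h1
    obtain ⟨ι, hι⟩ := exists_domD D (lnr_plV (rzD D)) rfl
    have h2 := T0a.nf_down ι ((hι.lin_rs (S := M.S) ⟨z, hM⟩).symm.nef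
      (by rw [toBD_mdl]; exact h _ (prm_rzD M D).dvs))
    exact G2H.Rs.nef_iff_curves.1 (nef_toBD_iff.1 h2) Z hD hZ

/-- **Kleiman's criterion on a surface** -/
theorem nef_of_dg (hd : dim k F = 2) (h : ∀ V, Dvs V → 0 ≤ Geo.dg V [z]) : Nef z :=
  nef_of_rs (d := 0) hd fun V hV => by
    have := essFT_Rf hV
    have h1 := dim_Rf' hV
    exact (Loc.nef_iff_deg (by omega)).2 (by simpa [Geo.dg_eq] using h V hV)

end Gen

variable {F : Type} [Field F] [Algebra ℂ F] [Algebra.EssFiniteType ℂ F] {P : PModel ℂ F}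
variable {a Θ : BD ℂ F} {V W : RZ ℂ F}

theorem bnum_dv' (hV : Prm (oP P) V) (ha : a ∈ On P) : bnum [a, dv P V] = Geo.dg V [a] := by
  rw [bnum_swap, bnum_dv hV (by simpa using ha)]

theorem nef_On (b : B2 F) (ha : a ∈ On P) (h : ∀ V, Prm (oP P) V → 0 ≤ bnum [a, dv P V]) :
    Nef a := nef_of_dg (Hor83.dim_two b) fun V hV => by
  by_cases h1 : Prm (oP P) V
  · exact bnum_dv' h1 ha ▸ h V h1
  · exact (Hor83.dg_car (Hor83.dim_two b) Br.free_oP (car_of_On ha) hV h1).ge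

theorem dv_dv_nonneg (hW : Prm (oP P) W) (h : W ≠ V) : 0 ≤ bnum [dv P V, dv P W] :=
  bnum_dv' hW (dv_mem V) ▸ dg_dv_nonneg hW h (by simp)

theorem nef_dv (b : B2 F) (h : 0 ≤ bnum [dv P V, dv P V]) : Nef (dv P V) :=
  nef_On b (dv_mem V) fun W hW => by
    by_cases h1 : W = V
    · exact h1 ▸ h
    · exact dv_dv_nonneg hW h1

theorem sq_neg (b : B2 F) (ha : Psef a) (h : bnum [a, dv P V] < 0) :
    bnum [dv P V, dv P V] < 0 := by
  by_contra h1
  exact absurd (ha.bnum_nonneg (l := [dv P V]) (by simpa using nef_dv b (not_lt.1 h1))) (not_le.2 h)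

theorem nef_mul_dv (ha : Nef a) (V : RZ ℂ F) : 0 ≤ bnum [a, dv P V] :=
  ((eff_of_nonneg (dv_nonneg V)).bnum_nonneg (by simpa using ha)).trans_eq (bnum_swap _ _ [])

/-- **Castelnuovo**: a `(-1)`-curve can be contracted -/
def CastStmt : Prop := ∀ (F : Type) [Field F] [Algebra ℂ F] [Algebra.EssFiniteType ℂ F]
  (P : PModel ℂ F) (b : B2 F) (V : RZ ℂ F), Prm (oP P) V → bnum [dv P V, dv P V] = -1 →
    bnum [kP P b, dv P V] = -1 → ∃ P₀ : PModel ℂ F, oP P₀ ∈ On P ∧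
      (∀ a ∈ On P, bnum [a, dv P V] = 0 → a ∈ On P₀) ∧ kP P b = kP P₀ b + dv P V

/-- the adjunction inequality `(K + C) C ≥ -2` -/
def AdjStmt : Prop := ∀ (F : Type) [Field F] [Algebra ℂ F] [Algebra.EssFiniteType ℂ F]
  (P : PModel ℂ F) (b : B2 F) (V : RZ ℂ F), Prm (oP P) V →
    -2 ≤ bnum [kP P b + dv P V, dv P V]

theorem minus_one (hA : AdjStmt) (b : B2 F) (hV : Prm (oP P) V) (h1 : bnum [kP P b, dv P V] < 0)
    (h2 : bnum [dv P V, dv P V] < 0) :
    bnum [dv P V, dv P V] = -1 ∧ bnum [kP P b, dv P V] = -1 := by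
  have := hA F P b V hV
  rw [bnum_add] at this
  omega

/-- one contraction -/
structure Cast (b : B2 F) (P P₀ : PModel ℂ F) (V : RZ ℂ F) : Prop where
  prm : Prm (oP P) V
  sq : bnum [dv P V, dv P V] = -1
  can : bnum [kP P b, dv P V] = -1
  le : oP P₀ ∈ On P
  mem : ∀ a ∈ On P, bnum [a, dv P V] = 0 → a ∈ On P₀
  kP_eq : kP P b = kP P₀ b + dv P V

namespace Cast

variable {b : B2 F} {P₀ : PModel ℂ F} (h : Cast b P P₀ V)
include h

theorem can0 : bnum [kP P₀ b, dv P V] = 0 := by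
  have h1 := h.can
  rw [h.kP_eq, bnum_add, h.sq] at h1
  omega

theorem can_sq : bnum [kP P₀ b, kP P₀ b] = bnum [kP P b, kP P b] + 1 := by
  rw [h.kP_eq, bnum_add, bnum_add2, bnum_add2, bnum_swap (dv P V) (kP P₀ b), h.can0, h.sq]
  ring

end Cast

theorem exists_cast (hC : CastStmt) (b : B2 F) (hV : Prm (oP P) V)
    (h1 : bnum [dv P V, dv P V] = -1) (h2 : bnum [kP P b, dv P V] = -1) :
    ∃ P₀, Cast b P P₀ V :=
  (hC F P b V hV h1 h2).imp fun _ h => ⟨hV, h1, h2, h.1, h.2.1, h.2.2⟩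

/-- induction along the contractions of the `Θ`-null `(-1)`-curves -/
theorem cast_ind (hC : CastStmt) (b : B2 F) (hΘ : 0 < bnum [Θ, Θ]) (Q : PModel ℂ F → Prop)
    (h0 : ∀ P, Θ ∈ On P → (∀ V, Prm (oP P) V → bnum [dv P V, dv P V] = -1 →
      bnum [kP P b, dv P V] = -1 → bnum [Θ, dv P V] ≠ 0) → Q P)
    (h1 : ∀ P P₀ V, Θ ∈ On P → Θ ∈ On P₀ → bnum [Θ, dv P V] = 0 → Cast b P P₀ V → Q P₀ → Q P)
    (P : PModel ℂ F) (hP : Θ ∈ On P) : Q P := by
  have hi' : ∀ P : PModel ℂ F,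
      0 ≤ bnum [Θ, kP P b] ^ 2 - bnum [Θ, Θ] * bnum [kP P b, kP P b] := fun P =>
    sub_nonneg.2 (hi (Λ := []) (by simp) hΘ _)
  generalize hn : (bnum [Θ, kP P b] ^ 2 - bnum [Θ, Θ] * bnum [kP P b, kP P b]).toNat = n
  induction n using Nat.strong_induction_on generalizing P with
  | _ n ih =>
    by_contra hQ
    refine hQ (h0 P hP fun V hV h2 h3 h4 => hQ ?_)
    obtain ⟨P₀, h⟩ := exists_cast hC b hV h2 h3
    refine h1 P P₀ V hP (h.mem _ hP h4) h4 h (ih _ ?_ P₀ (h.mem _ hP h4) rfl)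
    have h5 : bnum [Θ, kP P b] = bnum [Θ, kP P₀ b] := by rw [h.kP_eq, bnum_add2, h4, add_zero]
    have h6 := hi' P₀
    rw [← hn, h5]
    rw [h.can_sq, mul_add, mul_one] at h6 ⊢
    omega

end Crest.Agent.X262.Min71
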